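import Vale.Agent.P181.H382.Defs
import Vale.Agent.P181.TL.H797.CoreN
import Vale.Agent.P181.GK.H809.Fil
import Vale.Agent.P181.BAL.Defs
import Vale.Agent.P181.H777.Mono

set_option autoImplicit false

/-!
# P181, LL, (L6): the core in natural numbers (helper971)
-/

namespace Vale.Agent.P181.H382.H971

open Vale.Agent.P181 Vale.Agent.P181.H280 Vale.Agent.P181.FR
open Vale.Agent.P181.T4 (HW)
open Vale.Agent.P181.TL (KK dn2 UpB BalB)
open Vale.Agent.P181.TL.H797 (bal bal_le sum_bal)
open Vale.Agent.P181.BAL (Balance)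
open Vale.Agent.P181.GK (PadPos wt2)
open Vale.Agent.P181.GK.H809 (pos_two wt2_add wt2_self)

lemma bal_ge {a : ℕ} (t : ℕ) (i : Fin a) : t / a ≤ bal a t i := by
  unfold bal
  exact Nat.le_add_right _ _

/-- The three polynomial factors. -/
lemma numN {a b n m X K M t : ℕ} (ht : t ≤ a * b) (h1 : (m * (X + 1) + X) * n ≤ t)
    (hM : M ≤ a * b) (hK : 9 * K ≤ b) :
    (n * X + 1) * ((M + 1) * (K * (a - 12) + 1)) ≤ (a * b + 1) ^ 3 := by
  have e1 : n * X ≤ a * b := by
    refine le_trans ?_ (h1.trans ht)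
    calc n * X = X * n := mul_comm _ _
      _ ≤ (m * (X + 1) + X) * n := Nat.mul_le_mul_right _ (Nat.le_add_left _ _)
  have e2 : K * (a - 12) ≤ a * b := by
    calc K * (a - 12) ≤ b * a := Nat.mul_le_mul (by omega) (by omega)
      _ = a * b := mul_comm _ _
  calc (n * X + 1) * ((M + 1) * (K * (a - 12) + 1))
      ≤ (a * b + 1) * ((a * b + 1) * (a * b + 1)) :=
        Nat.mul_le_mul (by omega) (Nat.mul_le_mul (by omega) (by omega))
    _ = (a * b + 1) ^ 3 := by ring

/-- **(L6)**. -/
theorem coreN_of (h1 : UpB) (h2 : BalB) (h5 : LowM) (hBal : Balance) (hp : PadPos) : CoreN := by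
  obtain ⟨a0, hpos⟩ := pos_two
  refine ⟨a0, ?_⟩
  intro a b k e n m X h R K lam h10 hsum hae ha12 hm hX hh han hb hek hXn hXa hR he hL hpow
  have ha0 : 0 < a := by omega
  set t := dn2 lam with htdef
  have hs2 : ∀ f : Fin (k + 3) → ℕ, ∑ i, f i = f 0 + (f 1 + dn2 f) := by
    intro f
    rw [Fin.sum_univ_succ, Fin.sum_univ_succ]
    rfl
  have htot : lam 0 + (lam 1 + t) = a * b := by rw [← hsum, hs2]
  have hK5 : K * (5 * a - 6) = K * (4 * a + 6) + K * (a - 12) := by
    rw [← Nat.mul_add]
    congr 1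
    omega
  have hK9 : K * (4 * a + 6) + K * (5 * a - 6) = a * (9 * K) := by
    rw [← Nat.mul_add, show 4 * a + 6 + (5 * a - 6) = 9 * a by omega]
    ring
  have h9 : 9 * K ≤ b := by omega
  set tau : Fin (k + 1) → ℕ := fun i => lam i.succ.succ with htau
  have hst : ∑ i, tau i = t := rfl
  have ht0 : tau 0 = lam 2 := rfl
  have u1 := h1 a b (k + 1) lam
  have u2 := h2 (k + 1) a tau (bal a t) ha0 (bal_le a _) (by rw [hst]; exact sum_bal ha0 _)
  rw [hst] at u2
  obtain ⟨i, hi, u3⟩ := h5 k a e n m X h R tau (bal a t) ha0 hm hX hh han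
    (fun j => by rw [hst]; exact bal_ge t j) (by rw [hst]; exact sum_bal ha0 _)
    (by rw [hst]; exact hXn) (by rw [hst]; exact hXa) (by rw [ht0]; exact hR)
    (by rw [hst]; exact he)
  rw [ht0] at hi u3
  set M := n * (n / m) + 2 * e * h + lam 2 with hMdef
  set B := n + 2 * h with hBdef
  set F := Module.finrank ℂ (KK (k + 1) (Fin a) (bal a t) tau) with hF
  -- the upper bound
  have u4 : plethMult a b (k + 3) lam ≤ (a + b).choose a * ((a + t - 1).choose t * F) :=
    u1.trans (Nat.mul_le_mul_left _ u2)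
  -- multiplication and balancing
  have key : plethMult B e (k + 3) (wj (e * B) i tau) ≤
      (K * (a - 12) + 1) * plethMult b a (k + 3) lam := by
    by_cases hz : ∑ j, wj (e * B) i tau j = B * e
    · have hwj0 : (wj (e * B) i tau) 0 = e * B - (i + t) := rfl
      have hwj1 : (wj (e * B) i tau) 1 = i := rfl
      have hwjd : dn2 (wj (e * B) i tau) = t := rfl
      have hit : i + t ≤ e * B := by
        by_contra hc
        rw [hs2, hwj0, hwj1, hwjd, mul_comm B e] at hz
        omega
      have hBb : B + 9 * K = b := by omega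
      have heB : e * B ≤ K * (a - 12) := le_trans (Nat.mul_le_mul_left _ (by omega)) hek
      have hab : a * b = a * B + a * (9 * K) := by rw [← hBb]; ring
      have hL' : M + K * (5 * a - 6) + 9 * a ≤ lam 1 := hL
      obtain ⟨y, hy⟩ : ∃ y, y = lam 1 - K * (5 * a - 6) - i := ⟨_, rfl⟩
      obtain ⟨x, hx⟩ : ∃ x, x = lam 0 - K * (4 * a + 6) - (e * B - (i + t)) := ⟨_, rfl⟩
      have hd : (a - e) + e = a := by omega
      have hdB : (a - e) * B + e * B = a * B := by rw [← add_mul, hd]
      have hxy : x + y = (a - e) * B := by omega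
      have hyx : y ≤ x := by omega
      have p1 : Pos B (a - e) 2 ![x, y] := hpos (a - e) B x y (by omega) (by omega) hyx hxy
      have q1 := hp B (a - e) (k + 1) ![x, y] p1
      have s1 := plethMult_pt (c := e) (lam := wj (e * B) i tau) q1
      rw [hd] at s1
      set lam' : Fin (k + 3) → ℕ := fun j =>
        if (j : ℕ) = 0 then lam j - K * (4 * a + 6) else
          if (j : ℕ) = 1 then lam j - K * (5 * a - 6) else lam j with hlam'
      have e0 : lam' 0 = lam 0 - K * (4 * a + 6) := by simp [hlam']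
      have e1 : lam' 1 = lam 1 - K * (5 * a - 6) := by simp [hlam']
      have etail : ∀ j : Fin (k + 1), lam' j.succ.succ = lam j.succ.succ := by
        intro j
        simp only [hlam', Fin.val_succ]
        rw [if_neg (by omega), if_neg (by omega)]
      have hadd : wt2 ((![x, y] : Fin 2 → ℕ) 0) ((![x, y] : Fin 2 → ℕ) 1) (fun _ => 0) +
          wj (e * B) i tau = lam' := by
        funext j
        refine Fin.cases ?_ (fun j => ?_) j
        · show x + (e * B - (i + t)) = lam' 0
          rw [e0]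
          omega
        · refine Fin.cases ?_ (fun j => ?_) j
          · show y + i = lam' 1
            rw [e1]
            omega
          · show 0 + tau j = lam' j.succ.succ
            rw [etail, zero_add]
      rw [hadd] at s1
      have e7 := hBal a B (k + 1) K lam' lam (by omega) (by rw [e0, e1]; omega)
        (by rw [e0]; omega) (by rw [e1]; omega) (fun j => (etail j).symm)
      rw [hBb] at e7
      exact s1.trans e7
    · rw [H777.plethMult_eq_zero_of_sum _ _ _ hz]
      exact Nat.zero_le _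
  have hM : M ≤ a * b := by omega
  have hnum := numN (X := X) (K := K) (M := M) (show t ≤ a * b by omega) hXn hM h9
  obtain ⟨Q, hQ⟩ : ∃ Q, Q = (n * X + 1) * ((M + 1) * (K * (a - 12) + 1)) := ⟨_, rfl⟩
  have hQ0 : 0 < Q := by rw [hQ]; positivity
  refine Nat.le_of_mul_le_mul_left ?_ hQ0
  calc Q * plethMult a b (k + 3) lam
      ≤ (a * b + 1) ^ 3 * ((a + b).choose a * ((a + t - 1).choose t * F)) :=
        Nat.mul_le_mul (hQ ▸ hnum) u4
    _ = (a + b).choose a * (a + t - 1).choose t * (a * b + 1) ^ 3 * F := by ring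
    _ ≤ X ^ n * F := Nat.mul_le_mul_right _ hpow
    _ ≤ (n * X + 1) * ((M + 1) * plethMult B e (k + 3) (wj (e * B) i tau)) := u3
    _ ≤ (n * X + 1) * ((M + 1) * ((K * (a - 12) + 1) * plethMult b a (k + 3) lam)) :=
        Nat.mul_le_mul_left _ (Nat.mul_le_mul_left _ key)
    _ = Q * plethMult b a (k + 3) lam := by rw [hQ]; ring

end Vale.Agent.P181.H382.H971
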